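import Vale.Agent.P045.Peel
import Vale.Agent.P045g.C61.Db0
import Vale.Agent.P045g.C61.Db1
import Vale.Agent.P045g.C61.Db2
import Vale.Agent.P045g.C61.Db3
import Vale.Agent.P045g.C61.Db4
import Vale.Agent.P045g.C61.Db5
import Vale.Agent.P045g.C61.Db6
import Vale.Agent.P045g.C61.Db7
import Vale.Agent.P045g.C61.Db8
import Vale.Agent.P045g.C61.Db9
import Vale.Agent.P045g.C61.Db10
import Vale.Agent.P045g.C61.Db11
import Vale.Agent.P045g.C61.Db12
import Vale.Agent.P045g.C61.Db13
import Vale.Agent.P045g.C61.Db14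
import Vale.Agent.P045g.C61.Db15
import Vale.Agent.P045g.C61.Db16
import Vale.Agent.P045g.C61.Db17
import Vale.Agent.P045g.C61.Db18
import Vale.Agent.P045g.C61.Db19
import Vale.Agent.P045g.C61.Db20

/-!
# P045: covers of 4-partite hypergraphs: `τ ≤ 3 ν` for `ν ≤ 2` and `τ ≤ 4 ν - 2` for `ν ≥ 2`
-/

namespace Vale.Agent.Results.P045.A00_RyserFourAllNuB

open Vale.Agent.P045

/-- Let `edges` be a finite family of finite sets of vertices, every one of which contains exactly
one vertex of each of the four parts (the fibres of `part`).  If every family of pairwise disjoint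
edges has at most `k` members, then at most `3 * k + (k - 2)` vertices meet all edges
(truncated subtraction: `3 * k` for `k ≤ 2`, `4 * k - 2` for `k ≥ 2`). -/
theorem result {V : Type*} (part : V → Fin 4) (edges : Finset (Finset V))
    (hpart : ∀ e ∈ edges, ∀ i : Fin 4, ∃! v, v ∈ e ∧ part v = i)
    (k : ℕ)
    (hmatch : ∀ M : Finset (Finset V), M ⊆ edges →
      (∀ e ∈ M, ∀ f ∈ M, e ≠ f → Disjoint e f) → M.card ≤ k) :
    ∃ C : Finset V, C.card ≤ 3 * k + (k - 2) ∧ ∀ e ∈ edges, ∃ v ∈ C, v ∈ e :=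
  four_all part k edges hpart hmatch

end Vale.Agent.Results.P045.A00_RyserFourAllNuB
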